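import Vale.Agent.P338.Main

namespace Vale.Agent.Results.P338.FastMul

open Vale.Agent.P338

theorem result :
    (¬ ∀ A : TM, Multiplies A →
      ∃ c : ℝ, 0 < c ∧ ∃ N : ℕ, 2 ≤ N ∧ ∀ n : ℕ, N ≤ n → c * n * Real.log n ≤ T A n) ∧
    ∃ A : TM, Multiplies A ∧ ∃ δ : ℝ, 0 < δ ∧ ∃ (C : ℝ) (N : ℕ), ∀ n : ℕ, N ≤ n →
      (T A n : ℝ) ≤ C * n * Real.log n ^ (1 - δ) :=
  ⟨not_lower_bound, fast_mul⟩

end Vale.Agent.Results.P338.FastMul
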